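import Vale.Agent.P181.FLAT.H302.Asm
import Vale.Agent.P181.FLAT.H487.Words
import Vale.Agent.P181.FLAT.H858.Glue
import Vale.Agent.P181.FLAT.H235.Ext
import Vale.Agent.P181.FLAT.H246.Lef

set_option autoImplicit false

namespace Vale.Agent.P181.FLAT

open Vale.Agent.P181 Vale.Agent.P181.H280 Vale.Agent.P181.H867 MvPolynomial

theorem polc : PolcStmt := by
  intro ι _ _ M _ _ D Φ h F hF
  have h1 := multilinear_zero_of_span (∑ τ : Equiv.Perm ι, Φ.domDomCongr τ) D (by
    intro w hw
    rw [_root_.sum_apply]
    simp only [MultilinearMap.domDomCongr_apply]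
    exact h w hw) (fun _ => F) (fun _ => hF)
  rw [_root_.sum_apply] at h1
  simp only [MultilinearMap.domDomCongr_apply, Finset.sum_const, nsmul_eq_mul,
    Finset.card_univ] at h1
  refine (mul_eq_zero.1 h1).resolve_left ?_
  exact_mod_cast Fintype.card_ne_zero

theorem ext : ExtStmt :=
  ⟨fun _ c hc x hx y => H235.even_comm c hc x hx y, fun _ _ => ⟨H235.phi, H235.phi_ιMulti⟩,
    fun _ q c v => H235.prod_ιMulti q c v, fun _ b => (H235.span_ιMulti b).symm⟩

theorem lefStmt : LefStmt := fun g h1 h2 m k h => H246.lef g h1 h2 m k h

variable {n : ℕ}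

/-- The forms of highest weight vectors of a flat weight which kill the powers vanish. -/
theorem formsVanish (hPeel : PeelStmt) (d q c n : ℕ) (hq : 1 ≤ q) (hc : Even c)
    (lam : Fin n → ℕ) (hlam : ∀ i, lam i ≤ (q + 1) * c) : FormsVanishG d q c n lam := by
  classical
  intro l hx h
  have hw : ∀ w, H858.wf l w = 0 := by
    have e : Fin d × Fin (q * c) ≃ Fin (d * (q * c)) := finProdFinEquiv
    have h1 := H487.words (M := (q + 1) * c) (fun w : Fin (d * (q * c)) → Fin n =>
      H858.wf l (fun p => w (e p)))
      (fun P hP w => H858.wf_symP e lam hlam l hx P hP w) (by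
        intro κ w
        have h2 := antisymm_zero lefStmt hPeel polc ext (L := (q + 1) * c) rfl hc hq (formOf l)
          (formOf_symm l) h (fun p => w (e p)) (fun p => κ (e p))
        rw [← h2]
        refine Fintype.sum_equiv ((Equiv.permCongr e.symm).subtypeEquiv ?_) _ _ ?_
        · intro σ
          constructor
          · intro hσ
            funext p
            have := congrFun hσ (e p)
            simpa using this
          · intro hσ
            funext p
            have := congrFun hσ (e.symm p)
            simpa using this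
        · intro σ
          congr 1
          · simp [Equiv.subtypeEquiv]
          · rw [H858.wf, xw]
            congr 1
            funext i
            apply Finset.prod_congr rfl
            intro j _
            simp [Equiv.subtypeEquiv])
    intro w
    have h3 := congrFun h1 (fun p => w (e.symm p))
    simpa using h3
  have h4 := H858.wf_inj l hw
  intro P hP
  apply multilinear_zero_of_span (formOf l)
    (Set.range (fun c : Fin (q * c) → Fin n => ∏ j, (X (c j) : MvPolynomial (Fin n) ℂ)))
  · intro w hw'
    choose k hk using hw'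
    rw [← hw (fun p => k p.1 p.2), H858.wf]
    congr 1
    funext i
    exact (hk i).symm
  · intro i
    exact span_pow_eq _ _ (hP i)

/-- **Flat shapes.** -/
theorem flat_of (hPeel : PeelStmt) (d q c n : ℕ) (hq : 1 ≤ q) (hc : Even c) (lam : Fin n → ℕ)
    (hlam : ∀ i, lam i ≤ (q + 1) * c) :
    (∀ x ∈ hwSpace lam (plethAct d (q * c) n), powMapG d q c (Fin n → ℂ) x = 0 → x = 0) ∧
    plethMult d (q * c) n lam ≤ plethMult (q * d) c n lam :=
  ⟨fun x hx h0 => powMapG_injOn_of d q c n lam (formsVanish hPeel d q c n hq hc lam hlam) x hx h0,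
    plethMultG_le_of d q c n lam (formsVanish hPeel d q c n hq hc lam hlam)⟩

end Vale.Agent.P181.FLAT
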