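import Vale.Agent.P181.FLAT.H302.Final
import Vale.Agent.P181.FLAT.H604.PeelA

set_option autoImplicit false

namespace Vale.Agent.P181.FLAT

open Vale.Agent.P181 Vale.Agent.P181.H280 Vale.Agent.P181.H867

theorem peelStmt : PeelStmt := fun U Z hU q N hZ Ω hΩU hΩ T hT h =>
  H604.peelA U Z hU q N hZ Ω hΩU hΩ T hT h

/-- **Flat shapes**, strengthened form: `c` even, `q ≥ 1`, every number `d` of slots and every
weight with all entries at most `(q + 1) c`: the power map `Sym^d(Sym^{qc} ℂ^n) →
Sym^{qd}(Sym^c ℂ^n)` is injective on the highest weight vectors of this weight. -/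
theorem flat (d q c n : ℕ) (hq : 1 ≤ q) (hc : Even c) (lam : Fin n → ℕ)
    (hlam : ∀ i, lam i ≤ (q + 1) * c) :
    (∀ x ∈ hwSpace lam (plethAct d (q * c) n), powMapG d q c (Fin n → ℂ) x = 0 → x = 0) ∧
    plethMult d (q * c) n lam ≤ plethMult (q * d) c n lam :=
  flat_of peelStmt d q c n hq hc lam hlam

theorem flat_forms (d q c n : ℕ) (hq : 1 ≤ q) (hc : Even c) (lam : Fin n → ℕ)
    (hlam : ∀ i, lam i ≤ (q + 1) * c) : FormsVanishG d q c n lam :=
  formsVanish peelStmt d q c n hq hc lam hlam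

/-- Foulkes' inequality for flat shapes: `a` even, `b = q a`, all entries at most `a + b`. -/
theorem flat_foulkes (a q n : ℕ) (hq : 1 ≤ q) (ha : Even a) (lam : Fin n → ℕ)
    (hlam : ∀ i, lam i ≤ a + q * a) : plethMult a (q * a) n lam ≤ plethMult (q * a) a n lam :=
  (flat a q a n hq ha lam (fun i => (hlam i).trans (le_of_eq (by ring)))).2

end Vale.Agent.P181.FLAT
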