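import Vale.Agent.P181.FLAT.H302.Bridge
import Mathlib.LinearAlgebra.ExteriorAlgebra.OfAlternating
import Mathlib.LinearAlgebra.ExteriorPower.Basic

set_option autoImplicit false

namespace Vale.Agent.P181.FLAT

open Vale.Agent.P181 Vale.Agent.P181.H280 Vale.Agent.P181.H867 MvPolynomial

/-- Literal of [LEF]. -/
def LefStmt : Prop := ∀ {A : Type} [Ring A] [Algebra ℂ A] {n : ℕ} (g : Fin n × Bool → A)
  (_ : ∀ i j, g i * g j = -(g j * g i)) (_ : ∀ i, g i * g i = 0) (m k : ℕ) (_ : n ≤ m + k),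
  ∀ v ∈ (Submodule.span ℂ (Set.range g)) ^ (m + 2 * k),
    ∃ u ∈ (Submodule.span ℂ (Set.range g)) ^ m, (∑ i, g (i, false) * g (i, true)) ^ k * u = v

/-- Literal of [PEEL]. -/
def PeelStmt : Prop := ∀ {A : Type} [Ring A] [Algebra ℂ A] (U Z : Submodule ℂ A)
  (_ : ∀ x ∈ U, ∀ y : A, x * y = y * x) (q N : ℕ)
  (_ : ∀ F ∈ U, ∀ G ∈ U, ∀ H ∈ U, ∀ i j, i + j = q → F ^ i * G ^ j * H ∈ Z) (Ω : A) (_ : Ω ∈ U)
  (_ : ∀ v ∈ Z, ∃ u ∈ U, Ω ^ q * u = v) (T : MultilinearMap ℂ (fun _ : Fin N => A) ℂ)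
  (_ : ∀ (σ : Equiv.Perm (Fin N)) v, T (fun i => v (σ i)) = T v)
  (_ : ∀ F ∈ U, T (fun _ => F ^ (q + 1)) = 0), ∀ G : Fin N → A, (∀ i, G i ∈ Z) → T G = 0

/-- Literal of [WORDS]. -/
def WordsStmt : Prop := ∀ {D n M : ℕ} (x : (Fin D → Fin n) → ℂ)
  (_ : ∀ P : Finset (Fin D), P.card = M + 1 → ∀ w,
    ∑ σ : Equiv.Perm {i // i ∈ P}, x (w ∘ σ.ofSubtype) = 0)
  (_ : ∀ κ : Fin D → Fin M, ∀ w,
    ∑ σ : {σ : Equiv.Perm (Fin D) // κ ∘ σ = κ}, (Equiv.Perm.sign σ.1 : ℂ) * x (w ∘ σ.1) = 0),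
  x = 0

/-- Literal of [SYMP]. -/
def SymPStmt : Prop := ∀ {D n M : ℕ} (x : (Fin D → Fin (n+1)) → ℂ)
  (_ : ∀ w, x w ≠ 0 → (Finset.univ.filter (fun p => w p = 0)).card ≤ M)
  (_ : ∀ j : Fin (n+1), j ≠ 0 → ∀ w, ∑ p ∈ Finset.univ.filter (fun p => w p = 0),
    x (Function.update w p j) = 0)
  (P : Finset (Fin D)) (_ : P.card = M + 1) (w : Fin D → Fin (n+1)),
  ∑ σ : Equiv.Perm {i // i ∈ P}, x (w ∘ σ.ofSubtype) = 0

/-- Literal of [RAISE]. -/
def RaiseStmt : Prop := ∀ {a b n : ℕ} (lam : Fin n → ℕ)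
  (l : (Fin a → Fin b → (Fin n → ℂ)) →₀ ℂ) (_ : elOf l ∈ hwSpace lam (plethAct a b n)),
  (∀ w : Fin a × Fin b → Fin n, formOf l (fun i => ∏ j, X (w (i, j))) ≠ 0 →
    ∀ m, (Finset.univ.filter (fun p => w p = m)).card = lam m) ∧
  ∀ m K : Fin n, m < K → ∀ w : Fin a × Fin b → Fin n,
    ∑ p ∈ Finset.univ.filter (fun p => w p = m),
      formOf l (fun i => ∏ j, X (Function.update w p K (i, j))) = 0

/-- Literal of [POLC]. -/
def PolcStmt : Prop := ∀ {ι : Type} [Fintype ι] [DecidableEq ι] {M : Type} [AddCommGroup M]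
  [Module ℂ M] (D : Set M) (Φ : MultilinearMap ℂ (fun _ : ι => M) ℂ)
  (_ : ∀ y : ι → M, (∀ i, y i ∈ D) → ∑ τ : Equiv.Perm ι, Φ (fun i => y (τ i)) = 0),
  ∀ F ∈ Submodule.span ℂ D, Φ (fun _ => F) = 0

/-- Literal of [EXT]. -/
def ExtStmt : Prop :=
  (∀ (L c : ℕ), Even c → ∀ x ∈ (LinearMap.range (ExteriorAlgebra.ι ℂ (M := Fin L → ℂ))) ^ c,
    ∀ y, x * y = y * x) ∧
  (∀ (L b : ℕ), ∃ phi : (Fin b → Fin L) → ExteriorAlgebra ℂ (Fin L → ℂ) →ₗ[ℂ] ℂ, ∀ k v,
    phi k (ExteriorAlgebra.ιMulti ℂ b v) =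
      ∑ π : Equiv.Perm (Fin b), ((Equiv.Perm.sign π : ℤ) : ℂ) * ∏ j, v j (k (π j))) ∧
  (∀ (L q c : ℕ) (v : Fin (q * c) → Fin L → ℂ),
    (List.ofFn fun r : Fin q => ExteriorAlgebra.ιMulti ℂ c
      (fun s => v (finProdFinEquiv (r, s)))).prod = ExteriorAlgebra.ιMulti ℂ (q * c) v) ∧
  (∀ (L b : ℕ), (LinearMap.range (ExteriorAlgebra.ι ℂ (M := Fin L → ℂ))) ^ b =
    Submodule.span ℂ (Set.range (ExteriorAlgebra.ιMulti ℂ b (M := Fin L → ℂ))))

section Row

variable {E : Type} [Ring E] [Algebra ℂ E]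

/-- The multilinear map `y ↦ F(∏_k y_{1k}, …, ∏_k y_{ak})`, ordered products. -/
noncomputable def rowProdN {a : ℕ} (q : ℕ) (F : MultilinearMap ℂ (fun _ : Fin a => E) ℂ) :
    MultilinearMap ℂ (fun _ : Fin a × Fin q => E) ℂ where
  toFun y := F (fun i => (List.ofFn fun k => y (i, k)).prod)
  map_update_add' := by
    intro _ y p u v
    have key : ∀ z : E, (fun i => (List.ofFn fun k => Function.update y p z (i, k)).prod) =
        Function.update (fun i => (List.ofFn fun k => y (i, k)).prod) p.1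
          (MultilinearMap.mkPiAlgebraFin ℂ q E
            (Function.update (fun k => y (p.1, k)) p.2 z)) := by
      intro z
      funext i
      by_cases hi : i = p.1
      · subst hi
        rw [Function.update_self, MultilinearMap.mkPiAlgebraFin_apply]
        congr 2
        funext k
        by_cases hk : k = p.2
        · subst hk
          simp
        · rw [Function.update_of_ne hk, Function.update_of_ne]
          intro h
          exact hk (congrArg Prod.snd h)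
      · rw [Function.update_of_ne hi]
        congr 2
        funext k
        rw [Function.update_of_ne]
        intro h
        exact hi (congrArg Prod.fst h)
    rw [key, key, key, MultilinearMap.map_update_add, MultilinearMap.map_update_add]
  map_update_smul' := by
    intro _ y p c u
    have key : ∀ z : E, (fun i => (List.ofFn fun k => Function.update y p z (i, k)).prod) =
        Function.update (fun i => (List.ofFn fun k => y (i, k)).prod) p.1
          (MultilinearMap.mkPiAlgebraFin ℂ q E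
            (Function.update (fun k => y (p.1, k)) p.2 z)) := by
      intro z
      funext i
      by_cases hi : i = p.1
      · subst hi
        rw [Function.update_self, MultilinearMap.mkPiAlgebraFin_apply]
        congr 2
        funext k
        by_cases hk : k = p.2
        · subst hk
          simp
        · rw [Function.update_of_ne hk, Function.update_of_ne]
          intro h
          exact hk (congrArg Prod.snd h)
      · rw [Function.update_of_ne hi]
        congr 2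
        funext k
        rw [Function.update_of_ne]
        intro h
        exact hi (congrArg Prod.fst h)
    rw [key, key, MultilinearMap.map_update_smul, MultilinearMap.map_update_smul]

lemma rowProdN_apply {a : ℕ} (q : ℕ) (F : MultilinearMap ℂ (fun _ : Fin a => E) ℂ)
    (y : Fin a × Fin q → E) :
    rowProdN q F y = F (fun i => (List.ofFn fun k => y (i, k)).prod) := rfl

end Row

variable {n : ℕ}

/-- The form on the Grassmann algebra kills all `q`-th powers. -/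
theorem TT_pow (hP : PolcStmt) (hE : ExtStmt) {d q c L : ℕ} (hc : Even c)
    (phi : (Fin (q * c) → Fin L) → ExteriorAlgebra ℂ (Fin L → ℂ) →ₗ[ℂ] ℂ)
    (hphi : ∀ k v, phi k (ExteriorAlgebra.ιMulti ℂ (q * c) v) =
      ∑ π : Equiv.Perm (Fin (q * c)), sg π * ∏ j, v j (k (π j)))
    (x : (Fin d × Fin (q * c) → Fin n) → ℂ)
    (hx : ∀ u, ∑ τ : Equiv.Perm (Fin d × Fin q), x (u ∘ blk d q c τ) = 0)
    (hrow : ∀ (π : Fin d → Equiv.Perm (Fin (q * c))) w, x (w ∘ Equiv.prodCongrRight π) = x w)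
    (w0 : Fin d × Fin (q * c) → Fin n) (k0 : Fin d × Fin (q * c) → Fin L) :
    ∀ F ∈ (LinearMap.range (ExteriorAlgebra.ι ℂ (M := Fin L → ℂ))) ^ c,
      TT phi x w0 k0 (fun _ => F ^ q) = 0 := by
  intro F hF
  rw [hE.2.2.2 L c] at hF
  have h1 := hP (Set.range (ExteriorAlgebra.ιMulti ℂ c (M := Fin L → ℂ)))
    (rowProdN q (TT phi x w0 k0)) (by
      intro y hy
      choose V hV using hy
      have h2 : ∀ τ : Equiv.Perm (Fin d × Fin q), rowProdN q (TT phi x w0 k0) (fun i => y (τ i)) =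
          (Fintype.card (Fin d → Equiv.Perm (Fin (q * c))) : ℂ) *
            tt x w0 k0 ((fun p => V ((pos d q c).symm p).1 ((pos d q c).symm p).2) ∘
              blk d q c τ) := by
        intro τ
        rw [← TT_dec phi x w0 k0 (fun v => ExteriorAlgebra.ιMulti ℂ (q * c) v) hphi hrow,
          rowProdN_apply]
        congr 1
        funext i
        rw [← hE.2.2.1 L q c]
        congr 2
        funext k
        rw [← hV]
        congr 1
        funext s
        rw [← pos_apply d q c (i, k) s, Function.comp_apply, blk_pos, Equiv.symm_apply_apply]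
      rw [Finset.sum_congr rfl (fun τ _ => h2 τ), ← Finset.mul_sum, tt_blk hc x hx, mul_zero])
    F hF
  rw [rowProdN_apply] at h1
  simpa [List.ofFn_const, List.prod_replicate] using h1

/-- The column antisymmetrizations vanish. -/
theorem antisymm_zero (hLef : LefStmt) (hPeel : PeelStmt) (hP : PolcStmt) (hE : ExtStmt)
    {d q c L : ℕ} (hL0 : L = (q + 1) * c) (hc : Even c) (hq : 1 ≤ q)
    (f : MultilinearMap ℂ (fun _ : Fin d => MvPolynomial (Fin n) ℂ) ℂ) (hf : IsSymm f)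
    (h : ∀ G ∈ linS n ^ c, f (fun _ => G ^ q) = 0)
    (w0 : Fin d × Fin (q * c) → Fin n) (k0 : Fin d × Fin (q * c) → Fin L) :
    ∑ σ : {σ : Equiv.Perm (Fin d × Fin (q * c)) // k0 ∘ σ = k0},
      (Equiv.Perm.sign σ.1 : ℂ) * xw f (w0 ∘ σ.1) = 0 := by
  classical
  obtain ⟨q, rfl⟩ : ∃ q', q = q' + 1 := ⟨q - 1, by omega⟩
  have hL : L = (q + 1 + 1) * c := hL0
  obtain ⟨phi, hphi⟩ := hE.2.1 L ((q + 1) * c)
  set R := LinearMap.range (ExteriorAlgebra.ι ℂ (M := Fin L → ℂ)) with hR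
  obtain ⟨e, he⟩ := hc
  have hc : Even c := ⟨e, he⟩
  -- the letters
  have hLe : (q + 2) * e * 2 = L := by rw [hL, he]; ring
  let idx : Fin ((q + 2) * e) × Bool ≃ Fin L :=
    ((Equiv.prodCongr (Equiv.refl _) finTwoEquiv.symm).trans finProdFinEquiv).trans
      (finCongr hLe)
  let g : Fin ((q + 2) * e) × Bool → ExteriorAlgebra ℂ (Fin L → ℂ) :=
    fun i => ExteriorAlgebra.ι ℂ (Pi.single (idx i) 1)
  have hg : Submodule.span ℂ (Set.range g) = R := by
    rw [hR, LinearMap.range_eq_map, ← (Pi.basisFun ℂ (Fin L)).span_eq, Submodule.map_span]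
    congr 1
    ext z
    constructor
    · rintro ⟨i, rfl⟩
      exact ⟨_, ⟨idx i, rfl⟩, by simp [g]⟩
    · rintro ⟨_, ⟨i, rfl⟩, rfl⟩
      exact ⟨idx.symm i, by simp [g]⟩
  have hg1 : ∀ i j, g i * g j = -(g j * g i) := fun i j =>
    eq_neg_of_add_eq_zero_left (ExteriorAlgebra.ι_add_mul_swap _ _)
  have hg2 : ∀ i, g i * g i = 0 := fun i => ExteriorAlgebra.ι_sq_zero _
  set ω := ∑ i, g (i, false) * g (i, true) with hω
  have hωR : ω ∈ R ^ 2 := by
    apply Submodule.sum_mem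
    intro i _
    rw [pow_two]
    exact Submodule.mul_mem_mul ⟨_, rfl⟩ ⟨_, rfl⟩
  have hΩ : ω ^ e ∈ R ^ c := by
    have h1 := Submodule.pow_mem_pow _ hωR e
    rwa [← pow_mul, show 2 * e = c by omega] at h1
  have hsurj : ∀ v ∈ R ^ ((q + 1) * c), ∃ u ∈ R ^ c, (ω ^ e) ^ q * u = v := by
    intro v hv
    have h1 := hLef g hg1 hg2 c (e * q) (by rw [he]; nlinarith)
    rw [hg] at h1
    have h2 : c + 2 * (e * q) = (q + 1) * c := by rw [he]; ring
    rw [h2] at h1
    obtain ⟨u, hu, hu2⟩ := h1 v hv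
    exact ⟨u, hu, by rw [← pow_mul]; exact hu2⟩
  have hzero : ∀ G : Fin d → ExteriorAlgebra ℂ (Fin L → ℂ), (∀ i, G i ∈ R ^ ((q + 1) * c)) →
      TT phi (xw f) w0 k0 G = 0 := by
    apply hPeel (R ^ c) (R ^ ((q + 1) * c)) (fun x hx y => hE.1 L c hc x hx y) q d ?_ (ω ^ e) hΩ
      hsurj (TT phi (xw f) w0 k0) ?_ ?_
    · intro F hF G hG H hH i j hij
      have h1 := Submodule.mul_mem_mul (Submodule.mul_mem_mul (Submodule.pow_mem_pow _ hF i)
        (Submodule.pow_mem_pow _ hG j)) hH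
      rw [← pow_mul, ← pow_mul, ← pow_add, ← pow_add] at h1
      have h2 : c * i + c * j + c = (q + 1) * c := by rw [← hij]; ring
      rwa [h2] at h1
    · intro σ v
      exact TT_symm phi (xw f) w0 k0 (hc.mul_left _) (fun ε w => xw_symm f hf ε w) σ v
    · exact TT_pow hP hE hc phi hphi (xw f) (words_of_pow f h) (fun π w => xw_rows f π w) w0 k0
  have h1 := hzero (fun i => ExteriorAlgebra.ιMulti ℂ ((q + 1) * c)
      (fun j => (Pi.single (k0 (i, j)) 1 : Fin L → ℂ))) (fun i => by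
    rw [hR, hE.2.2.2 L]
    exact Submodule.subset_span ⟨_, rfl⟩)
  have h2 := TT_dec phi (xw f) w0 k0 (fun v => ExteriorAlgebra.ιMulti ℂ ((q + 1) * c) v) hphi
    (fun π w => xw_rows f π w) (fun p => (Pi.single (k0 p) 1 : Fin L → ℂ))
  rw [h1] at h2
  have h3 : tt (xw f) w0 k0 (fun p => (Pi.single (k0 p) 1 : Fin L → ℂ)) = 0 := by
    refine (mul_eq_zero.1 h2.symm).resolve_left ?_
    exact_mod_cast Fintype.card_ne_zero
  rw [tt] at h3
  have h4 : ∀ σ : Equiv.Perm (Fin d × Fin ((q + 1) * c)),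
      sg σ * xw f (w0 ∘ σ) * ∏ p, (Pi.single (k0 p) 1 : Fin L → ℂ) (k0 (σ p)) =
      if k0 ∘ σ = k0 then sg σ * xw f (w0 ∘ σ) else 0 := by
    intro σ
    split_ifs with hσ
    · rw [Finset.prod_eq_one, mul_one]
      intro p _
      rw [show k0 (σ p) = k0 p from congrFun hσ p, Pi.single_eq_same]
    · obtain ⟨p, hp⟩ := Function.ne_iff.1 hσ
      rw [Finset.prod_eq_zero (Finset.mem_univ p), mul_zero]
      exact Pi.single_eq_of_ne hp _
  rw [Finset.sum_congr rfl (fun σ _ => h4 σ), ← Finset.sum_filter] at h3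
  rw [← h3]
  exact (Finset.sum_subtype (Finset.univ.filter
    (fun σ : Equiv.Perm (Fin d × Fin ((q + 1) * c)) => k0 ∘ σ = k0)) (by simp)
    (fun σ => sg σ * xw f (w0 ∘ σ))).symm

end Vale.Agent.P181.FLAT
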