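import Vale.Agent.P181.H867.PowG

set_option autoImplicit false

namespace Vale.Agent.P181.FLAT

open Vale.Agent.P181 Vale.Agent.P181.H280 Vale.Agent.P181.H867 MvPolynomial

variable {n : ℕ}

/-- The coefficient of a word. -/
noncomputable def xw {d b : ℕ} (f : MultilinearMap ℂ (fun _ : Fin d => MvPolynomial (Fin n) ℂ) ℂ)
    (w : Fin d × Fin b → Fin n) : ℂ := f (fun i => ∏ j, X (w (i, j)))

/-- Positions in blocks. -/
def pos (d q c : ℕ) : (Fin d × Fin q) × Fin c ≃ Fin d × Fin (q * c) :=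
  (Equiv.prodAssoc _ _ _).trans (Equiv.prodCongr (Equiv.refl _) finProdFinEquiv)

lemma pos_apply (d q c : ℕ) (p : Fin d × Fin q) (s : Fin c) :
    pos d q c (p, s) = (p.1, finProdFinEquiv (p.2, s)) := rfl

/-- The permutation of the positions given by a permutation of the blocks. -/
def blk (d q c : ℕ) (τ : Equiv.Perm (Fin d × Fin q)) : Equiv.Perm (Fin d × Fin (q * c)) :=
  ((pos d q c).symm.trans (Equiv.prodCongr τ (Equiv.refl (Fin c)))).trans (pos d q c)

lemma blk_pos (d q c : ℕ) (τ : Equiv.Perm (Fin d × Fin q)) (p : Fin d × Fin q) (s : Fin c) :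
    blk d q c τ (pos d q c (p, s)) = pos d q c (τ p, s) := by
  simp [blk]

lemma sign_blk (d q c : ℕ) (hc : Even c) (τ : Equiv.Perm (Fin d × Fin q)) :
    Equiv.Perm.sign (blk d q c τ) = 1 := by
  have h1 : blk d q c τ = (pos d q c).permCongr
      (Equiv.prodCongrLeft (fun _ : Fin c => τ)) := by
    ext p
    · rfl
    · rfl
  rw [h1, Equiv.Perm.sign_permCongr, Equiv.Perm.sign_prodCongrLeft, Finset.prod_const,
    Finset.card_univ, Fintype.card_fin]
  obtain ⟨k, rfl⟩ := hc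
  rw [← two_mul, pow_mul, Int.units_sq, one_pow]

/-- The power hypothesis in words. -/
lemma words_of_pow {d q c : ℕ} (f : MultilinearMap ℂ (fun _ : Fin d => MvPolynomial (Fin n) ℂ) ℂ)
    (h : ∀ G ∈ linS n ^ c, f (fun _ => G ^ q) = 0) (u : Fin d × Fin (q * c) → Fin n) :
    ∑ τ : Equiv.Perm (Fin d × Fin q), xw f (u ∘ blk d q c τ) = 0 := by
  classical
  have h1 := polar (rowProd q f) (linS n ^ c) (by
    intro G hG
    rw [rowProd_apply]
    simp only [Finset.prod_const, Finset.card_univ, Fintype.card_fin]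
    exact h G hG) (fun p => ∏ s : Fin c, X (u (pos d q c (p, s)))) (by
    intro p
    have h2 : ∀ T : Finset (Fin c), ∏ s ∈ T, (X (u (pos d q c (p, s))) : MvPolynomial (Fin n) ℂ) ∈
        linS n ^ T.card := by
      intro T
      induction T using Finset.induction with
      | empty =>
        rw [Finset.prod_empty, Finset.card_empty, pow_zero]
        exact Submodule.mem_one.2 ⟨1, map_one _⟩
      | insert j T hj ih =>
        rw [Finset.prod_insert hj, Finset.card_insert_of_notMem hj]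
        exact mul_mem_linS _ _ ih
    have h3 := h2 Finset.univ
    rwa [Finset.card_univ, Fintype.card_fin] at h3)
  rw [← h1]
  apply Finset.sum_congr rfl
  intro τ _
  rw [rowProd_apply, xw]
  congr 1
  funext i
  rw [← Equiv.prod_comp finProdFinEquiv, Fintype.prod_prod_type]
  apply Finset.prod_congr rfl
  intro k _
  apply Finset.prod_congr rfl
  intro s _
  rw [Function.comp_apply, ← pos_apply d q c (i, k) s, blk_pos]

/-- Permutations inside the rows do not change the coefficient. -/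
lemma xw_rows {d b : ℕ} (f : MultilinearMap ℂ (fun _ : Fin d => MvPolynomial (Fin n) ℂ) ℂ)
    (π : Fin d → Equiv.Perm (Fin b)) (w : Fin d × Fin b → Fin n) :
    xw f (w ∘ Equiv.prodCongrRight π) = xw f w := by
  rw [xw, xw]
  congr 1
  funext i
  exact Equiv.prod_comp (π i) (fun j => (X (w (i, j)) : MvPolynomial (Fin n) ℂ))

/-- Permutations of the rows do not change the coefficient. -/
lemma xw_symm {d b : ℕ} (f : MultilinearMap ℂ (fun _ : Fin d => MvPolynomial (Fin n) ℂ) ℂ)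
    (hf : IsSymm f) (ε : Equiv.Perm (Fin d)) (w : Fin d × Fin b → Fin n) :
    xw f (w ∘ Equiv.prodCongr ε (Equiv.refl (Fin b))) = xw f w := by
  rw [xw, xw]
  exact hf ε (fun i => ∏ j, X (w (i, j)))

section TT

variable {E : Type*} [Ring E] [Algebra ℂ E] {d b L : ℕ}
  (phi : (Fin b → Fin L) → E →ₗ[ℂ] ℂ)
  (x : (Fin d × Fin b → Fin n) → ℂ) (w0 : Fin d × Fin b → Fin n) (k0 : Fin d × Fin b → Fin L)

/-- The sign. -/
noncomputable def sg {ι : Type*} [Fintype ι] [DecidableEq ι] (σ : Equiv.Perm ι) : ℂ :=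
  ((Equiv.Perm.sign σ : ℤ) : ℂ)

lemma sg_mul {ι : Type*} [Fintype ι] [DecidableEq ι] (σ τ : Equiv.Perm ι) :
    sg (σ * τ) = sg σ * sg τ := by
  simp [sg]

/-- The multilinear form on the Grassmann algebra. -/
noncomputable def TT : MultilinearMap ℂ (fun _ : Fin d => E) ℂ :=
  ∑ σ : Equiv.Perm (Fin d × Fin b), (sg σ * x (w0 ∘ σ)) •
    (MultilinearMap.mkPiAlgebra ℂ (Fin d) ℂ).compLinearMap (fun i => phi (fun j => k0 (σ (i, j))))

lemma TT_apply (h : Fin d → E) : TT phi x w0 k0 h =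
    ∑ σ : Equiv.Perm (Fin d × Fin b), sg σ * x (w0 ∘ σ) *
      ∏ i, phi (fun j => k0 (σ (i, j))) (h i) := by
  simp only [TT, _root_.sum_apply, smul_apply, MultilinearMap.compLinearMap_apply,
    MultilinearMap.mkPiAlgebra_apply, smul_eq_mul]

/-- The form on vectors. -/
noncomputable def tt (v : Fin d × Fin b → Fin L → ℂ) : ℂ :=
  ∑ σ : Equiv.Perm (Fin d × Fin b), sg σ * x (w0 ∘ σ) * ∏ p, v p (k0 (σ p))

lemma TT_symm (hb : Even b)
    (hx : ∀ (ε : Equiv.Perm (Fin d)) w, x (w ∘ Equiv.prodCongr ε (Equiv.refl (Fin b))) = x w)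
    (ε : Equiv.Perm (Fin d)) (h : Fin d → E) :
    TT phi x w0 k0 (fun i => h (ε i)) = TT phi x w0 k0 h := by
  rw [TT_apply, TT_apply, ← Equiv.sum_comp (Equiv.mulRight (Equiv.prodCongr ε (Equiv.refl (Fin b))))]
  apply Finset.sum_congr rfl
  intro σ _
  have h1 : sg (Equiv.prodCongr ε (Equiv.refl (Fin b))) = 1 := by
    have h2 : (Equiv.prodCongr ε (Equiv.refl (Fin b))) =
        Equiv.prodCongrLeft (fun _ : Fin b => ε) := by
      ext p
      · rfl
      · rfl
    rw [h2, sg, Equiv.Perm.sign_prodCongrLeft, Finset.prod_const, Finset.card_univ,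
      Fintype.card_fin]
    obtain ⟨k, rfl⟩ := hb
    rw [← two_mul, pow_mul, Int.units_sq, one_pow]
    simp
  have h3 : (w0 ∘ ⇑(Equiv.mulRight (Equiv.prodCongr ε (Equiv.refl (Fin b))) σ)) =
      (w0 ∘ σ) ∘ Equiv.prodCongr ε (Equiv.refl (Fin b)) := rfl
  rw [h3, hx, Equiv.coe_mulRight, sg_mul, h1, mul_one]
  congr 1
  rw [← Equiv.prod_comp ε (fun i => phi (fun j => k0 (σ (i, j))) (h i))]
  rfl

lemma TT_dec (ιM : (Fin b → Fin L → ℂ) → E)
    (hphi : ∀ k v, phi k (ιM v) = ∑ π : Equiv.Perm (Fin b), sg π * ∏ j, v j (k (π j)))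
    (hx : ∀ (π : Fin d → Equiv.Perm (Fin b)) w, x (w ∘ Equiv.prodCongrRight π) = x w)
    (v : Fin d × Fin b → Fin L → ℂ) :
    TT phi x w0 k0 (fun i => ιM (fun j => v (i, j))) =
      (Fintype.card (Fin d → Equiv.Perm (Fin b)) : ℂ) * tt x w0 k0 v := by
  rw [TT_apply]
  simp only [hphi]
  have h1 : ∀ σ : Equiv.Perm (Fin d × Fin b), sg σ * x (w0 ∘ σ) *
      ∏ i, ∑ π : Equiv.Perm (Fin b), sg π * ∏ j, v (i, j) (k0 (σ (i, π j))) =
      ∑ π : Fin d → Equiv.Perm (Fin b), (sg (σ * Equiv.prodCongrRight π) *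
        x (w0 ∘ (σ * Equiv.prodCongrRight π : Equiv.Perm (Fin d × Fin b))) *
        ∏ p, v p (k0 ((σ * Equiv.prodCongrRight π : Equiv.Perm (Fin d × Fin b)) p))) := by
    intro σ
    rw [Finset.prod_univ_sum, Fintype.piFinset_univ, Finset.mul_sum]
    apply Finset.sum_congr rfl
    intro π _
    have h2 : x (w0 ∘ (σ * Equiv.prodCongrRight π : Equiv.Perm (Fin d × Fin b))) = x (w0 ∘ σ) :=
      hx π (w0 ∘ σ)
    have h3 : sg (Equiv.prodCongrRight π : Equiv.Perm (Fin d × Fin b)) = ∏ i, sg (π i) := by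
      rw [sg, Equiv.Perm.sign_prodCongrRight]
      simp [sg]
    rw [h2, sg_mul, h3, Finset.prod_mul_distrib, Fintype.prod_prod_type]
    simp only [Equiv.Perm.coe_mul, Function.comp_apply, Equiv.prodCongrRight_apply]
    ring
  rw [Finset.sum_congr rfl (fun σ _ => h1 σ), Finset.sum_comm]
  have h4 : ∀ π ∈ (Finset.univ : Finset (Fin d → Equiv.Perm (Fin b))),
      ∑ σ : Equiv.Perm (Fin d × Fin b), (sg (σ * Equiv.prodCongrRight π) *
        x (w0 ∘ (σ * Equiv.prodCongrRight π : Equiv.Perm (Fin d × Fin b))) *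
        ∏ p, v p (k0 ((σ * Equiv.prodCongrRight π : Equiv.Perm (Fin d × Fin b)) p))) =
      tt x w0 k0 v := by
    intro π _
    exact Equiv.sum_comp (Equiv.mulRight (Equiv.prodCongrRight π : Equiv.Perm (Fin d × Fin b)))
      (fun σ => sg σ * x (w0 ∘ σ) * ∏ p, v p (k0 (σ p)))
  rw [Finset.sum_congr rfl h4, Finset.sum_const, Finset.card_univ, nsmul_eq_mul]

end TT

/-- Block permutations: the power hypothesis on vectors. -/
lemma tt_blk {d q c L : ℕ} (hc : Even c) (x : (Fin d × Fin (q * c) → Fin n) → ℂ)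
    (hx : ∀ u, ∑ τ : Equiv.Perm (Fin d × Fin q), x (u ∘ blk d q c τ) = 0)
    (w0 : Fin d × Fin (q * c) → Fin n) (k0 : Fin d × Fin (q * c) → Fin L)
    (v : Fin d × Fin (q * c) → Fin L → ℂ) :
    ∑ τ : Equiv.Perm (Fin d × Fin q), tt x w0 k0 (v ∘ blk d q c τ) = 0 := by
  have h1 : ∀ τ : Equiv.Perm (Fin d × Fin q), tt x w0 k0 (v ∘ blk d q c τ) =
      ∑ σ : Equiv.Perm (Fin d × Fin (q * c)), sg σ * (∏ p, v p (k0 (σ p))) *
        x ((w0 ∘ σ) ∘ blk d q c τ) := by
    intro τ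
    rw [tt, ← Equiv.sum_comp (Equiv.mulRight (blk d q c τ))]
    apply Finset.sum_congr rfl
    intro σ _
    have h2 : sg (blk d q c τ) = 1 := by
      rw [sg, sign_blk d q c hc]; simp
    have h3 : (w0 ∘ ⇑(Equiv.mulRight (blk d q c τ) σ)) = (w0 ∘ σ) ∘ blk d q c τ := rfl
    rw [h3, Equiv.coe_mulRight, sg_mul, h2, mul_one]
    have h4 : ∏ p, (v ∘ blk d q c τ) p (k0 ((σ * blk d q c τ : Equiv.Perm _) p)) =
        ∏ p, v p (k0 (σ p)) :=
      Equiv.prod_comp (blk d q c τ) (fun p => v p (k0 (σ p)))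
    rw [h4]
    ring
  rw [Finset.sum_congr rfl (fun τ _ => h1 τ), Finset.sum_comm]
  apply Finset.sum_eq_zero
  intro σ _
  rw [← Finset.mul_sum, hx, mul_zero]

end Vale.Agent.P181.FLAT
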