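import Vale.Agent.P181.FLAT.H302.All
import Vale.Agent.P181.H54.Propagate

set_option autoImplicit false

namespace Vale.Agent.P181.FLAT

open Vale.Agent.P181 Vale.Agent.P181.H280 Vale.Agent.P181.H867 Vale.Agent.P181.H54

/-- Foulkes' inequality for a set of tails closed under shortening of the first row: the step from
`(a, B)` to `(a, B + k)`. -/
theorem extend (a B k m : ℕ) (lam : Fin (m + 1) → ℕ) (h : ∀ i, i ≠ 0 → lam i ≤ B)
    (hF : a * k ≤ lam 0 → plethMult a B (m + 1) (fun i => if i = 0 then lam 0 - a * k else lam i) ≤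
      plethMult B a (m + 1) (fun i => if i = 0 then lam 0 - a * k else lam i)) :
    plethMult a (B + k) (m + 1) lam ≤ plethMult (B + k) a (m + 1) lam := by
  by_cases h0 : lam 0 < a * k
  · rw [plethMult_small a B lam h k h0]
    exact Nat.zero_le _
  · push Not at h0
    set mu : Fin (m + 1) → ℕ := fun i => if i = 0 then lam 0 - a * k else lam i with hmu
    have hlam : lam = addFirst mu (a * k) := by
      funext i
      simp only [addFirst, hmu]
      split_ifs with hi
      · subst hi; omega
      · rfl
    have hmu2 : ∀ i, i ≠ 0 → mu i ≤ B := by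
      intro i hi
      simp only [hmu, if_neg hi]
      exact h i hi
    rw [hlam]
    exact (plethMult_stab_iter a B mu hmu2 k).trans ((hF h0).trans (plethMult_mono_iter a B mu k))

/-- **Flat shapes, every `b ≥ q a`**: `a` even, all rows but the first at most `q a`, the first row
at most `a + q a + a (b - q a)`. -/
theorem flat_ext (a q b m : ℕ) (hq : 1 ≤ q) (ha : Even a) (hb : q * a ≤ b)
    (lam : Fin (m + 1) → ℕ) (h : ∀ i, i ≠ 0 → lam i ≤ q * a)
    (h0 : lam 0 ≤ a + q * a + a * (b - q * a)) :
    plethMult a b (m + 1) lam ≤ plethMult b a (m + 1) lam := by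
  obtain ⟨k, rfl⟩ := Nat.exists_eq_add_of_le hb
  rw [Nat.add_sub_cancel_left] at h0
  refine extend a (q * a) k m lam h (fun _ => flat_foulkes a q (m + 1) hq ha _ ?_)
  intro i
  split_ifs with hi
  · omega
  · exact (h i hi).trans (Nat.le_add_left _ _)

end Vale.Agent.P181.FLAT
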